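import Vale.Agent.P202.Mixed.Chart.Model
import Vale.Agent.P202.Imperfect.Resolution

/-!
# P202 mixed characteristic, chart: the resolution

The closed fibre of `A → W(L)[[X, Z]] ⊗ A` is `L[[Z]]`, so a finite module flat over `A` has a
resolution of length the number of the variables `Z`.
-/

noncomputable section

namespace Vale.Agent.P202.Mixed.Chart

open IsLocalRing MvPowerSeries TensorProduct

attribute [local instance] Algebra.TensorProduct.rightAlgebra

universe u

variable {p : ℕ} [Fact p.Prime] {L : Type u} [Field L] [CharP L p] [PerfectRing L p]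
  {C : Type u} [CommRing C] [IsLocalRing C] {A : Type u} [CommRing A] [IsLocalRing A]
  [IsNoetherianRing A] {d s : ℕ} [Algebra (MvPowerSeries (Fin (d + 1)) C) A] [Module.Finite (MvPowerSeries (Fin (d + 1)) C) A]
  [IsLocalHom (algebraMap (MvPowerSeries (Fin (d + 1)) C) A)] [Algebra (MvPowerSeries (Fin (d + 1)) C) (MvPowerSeries (Fin (d + s + 1)) (WittVector p L))] [Module.Flat (MvPowerSeries (Fin (d + 1)) C) (MvPowerSeries (Fin (d + s + 1)) (WittVector p L))]
  [IsLocalRing ((MvPowerSeries (Fin (d + s + 1)) (WittVector p L)) ⊗[(MvPowerSeries (Fin (d + 1)) C)] A)]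

/-- Finite modules flat over `A` have resolutions of length `s`. -/
theorem finRes_chart (hC : IsCohen p C) (hψX : ∀ i, algebraMap (MvPowerSeries (Fin (d + 1)) C) (MvPowerSeries (Fin (d + s + 1)) (WittVector p L)) (X i) = X (embX d s i))
    (hres : ∀ a : A, ∃ c : C, a - algebraMap (MvPowerSeries (Fin (d + 1)) C) A (MvPowerSeries.C c) ∈ maximalIdeal A)
    (hBmax : maximalIdeal ((MvPowerSeries (Fin (d + s + 1)) (WittVector p L)) ⊗[(MvPowerSeries (Fin (d + 1)) C)] A) = (maximalIdeal (MvPowerSeries (Fin (d + s + 1)) (WittVector p L))).map (algebraMap (MvPowerSeries (Fin (d + s + 1)) (WittVector p L)) ((MvPowerSeries (Fin (d + s + 1)) (WittVector p L)) ⊗[(MvPowerSeries (Fin (d + 1)) C)] A)) ⊔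
      (maximalIdeal A).map (Algebra.TensorProduct.includeRight : A →ₐ[(MvPowerSeries (Fin (d + 1)) C)] (MvPowerSeries (Fin (d + s + 1)) (WittVector p L)) ⊗[(MvPowerSeries (Fin (d + 1)) C)] A).toRingHom)
    (T : Type u) [CommRing T] [Algebra A T] [Algebra ((MvPowerSeries (Fin (d + s + 1)) (WittVector p L)) ⊗[(MvPowerSeries (Fin (d + 1)) C)] A) T]
    [IsScalarTower A ((MvPowerSeries (Fin (d + s + 1)) (WittVector p L)) ⊗[(MvPowerSeries (Fin (d + 1)) C)] A) T] [Module.Finite ((MvPowerSeries (Fin (d + s + 1)) (WittVector p L)) ⊗[(MvPowerSeries (Fin (d + 1)) C)] A) T] [Module.Flat A T] :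
    Diag.FinRes ((MvPowerSeries (Fin (d + s + 1)) (WittVector p L)) ⊗[(MvPowerSeries (Fin (d + 1)) C)] A) s T := by
  classical
  set B := (MvPowerSeries (Fin (d + s + 1)) (WittVector p L)) ⊗[(MvPowerSeries (Fin (d + 1)) C)] A
  let F := MvPowerSeries (Fin s) L
  have : IsNoetherianRing B := IsNoetherianRing.of_finite (MvPowerSeries (Fin (d + s + 1)) (WittVector p L)) B
  have : Module.Flat A B :=
    Module.Flat.isBaseChange (MvPowerSeries (Fin (d + 1)) C) A (MvPowerSeries (Fin (d + s + 1)) (WittVector p L)) B (inferInstance : Algebra.IsPushout (MvPowerSeries (Fin (d + 1)) C) A (MvPowerSeries (Fin (d + s + 1)) (WittVector p L)) B).out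
  let ρ : (MvPowerSeries (Fin (d + s + 1)) (WittVector p L)) →+* F := (MvPowerSeries.map (WittVector.constantCoeff : WittVector p L →+* L)).comp
    (killCompl (embZ d s)).toRingHom
  have hρ : ∀ w t, coeff t (ρ w) = WittVector.constantCoeff (coeff (t.embDomain (embZ d s)) w) :=
    fun w t => by simp [ρ, coeff_killCompl]
  have hρp : ρ (p : (MvPowerSeries (Fin (d + s + 1)) (WittVector p L))) = 0 := by
    rw [map_natCast]
    ext t
    rw [← map_natCast (MvPowerSeries.C : L →+* F), CharP.cast_eq_zero L p, map_zero, map_zero]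
  have hρl : ∀ j, ρ (X (embX d s j)) = 0 := fun j => by
    show MvPowerSeries.map (WittVector.constantCoeff : WittVector p L →+* L)
      (killCompl (embZ d s) (X (embX d s j))) = 0
    rw [killCompl_X_eq_zero (fun ⟨i, hi⟩ => embZ_ne_embX d s i j hi), map_zero]
  have hρsurj : Function.Surjective ρ := fun f => by
    let q : MvPowerSeries (Fin s) (WittVector p L) := fun t =>
      Function.surjInv (WittVector.constantCoeff_surjective p) (coeff t f)
    refine ⟨rename (embZ d s) q, ?_⟩
    ext t
    rw [hρ, coeff_embDomain_rename]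
    exact Function.surjInv_eq (WittVector.constantCoeff_surjective p) _
  -- the coefficient map on the residue field
  let φ : C →+* F := (ρ.comp (algebraMap (MvPowerSeries (Fin (d + 1)) C) (MvPowerSeries (Fin (d + s + 1)) (WittVector p L)))).comp MvPowerSeries.C
  have hφ : ∀ a ∈ maximalIdeal C, φ a = 0 := fun a ha => by
    obtain ⟨c, rfl⟩ := Ideal.mem_span_singleton'.1 (hC.max_eq ▸ ha)
    rw [map_mul]
    simp only [φ, RingHom.comp_apply, map_natCast]
    rw [← map_natCast ρ, hρp, mul_zero]
  let θA : C →+* A := (algebraMap (MvPowerSeries (Fin (d + 1)) C) A).comp MvPowerSeries.C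
  have : IsLocalHom θA := ⟨fun a ha => by
    have h := IsLocalHom.map_nonunit (f := algebraMap (MvPowerSeries (Fin (d + 1)) C) A) _ ha
    simpa using isUnit_iff_constantCoeff.1 h⟩
  let E : ResidueField C ≃+* ResidueField A := RingEquiv.ofBijective (ResidueField.map θA)
    ⟨(ResidueField.map θA).injective, fun x => by
      obtain ⟨a, rfl⟩ := residue_surjective x
      obtain ⟨c, hc⟩ := hres a
      refine ⟨residue C c, ?_⟩
      rw [ResidueField.map_residue, eq_comm, ← sub_eq_zero, ← map_sub, residue_eq_zero_iff]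
      exact hc⟩
  let σ : A →+* F :=
    ((Ideal.Quotient.lift (maximalIdeal C) φ hφ).comp E.symm.toRingHom).comp (residue A)
  have hσm : ∀ a ∈ maximalIdeal A, σ a = 0 := fun a ha => by
    simp only [σ, RingHom.comp_apply, (residue_eq_zero_iff a).2 ha, map_zero]
  have hσC : ∀ c, σ (algebraMap (MvPowerSeries (Fin (d + 1)) C) A (MvPowerSeries.C c)) = φ c := fun c => by
    show Ideal.Quotient.lift _ φ hφ (E.symm (residue A (θA c))) = _
    rw [show E.symm (residue A (θA c)) = residue C c from
      (RingEquiv.symm_apply_eq E).2 (ResidueField.map_residue θA c).symm]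
    rfl
  have hρv : ∀ v, ρ (algebraMap (MvPowerSeries (Fin (d + 1)) C) (MvPowerSeries (Fin (d + s + 1)) (WittVector p L)) v) = σ (algebraMap (MvPowerSeries (Fin (d + 1)) C) A v) := fun v => by
    have hle : Ideal.span (Set.range (X : Fin (d + 1) → (MvPowerSeries (Fin (d + 1)) C))) ≤
        RingHom.ker (ρ.comp (algebraMap (MvPowerSeries (Fin (d + 1)) C) (MvPowerSeries (Fin (d + s + 1)) (WittVector p L)))) ⊓ RingHom.ker (σ.comp (algebraMap (MvPowerSeries (Fin (d + 1)) C) A)) := by
      rw [Ideal.span_le]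
      rintro _ ⟨i, rfl⟩
      refine ⟨?_, hσm _ (map_nonunit _ _ ((mem_maximalIdeal _).2 fun h => by
        simpa using isUnit_iff_constantCoeff.1 h))⟩
      rw [SetLike.mem_coe, RingHom.mem_ker, RingHom.comp_apply, hψX, hρl]
    obtain ⟨h1, h2⟩ := hle (sub_C_constantCoeff_mem_span_X v)
    replace h1 : (ρ.comp (algebraMap _ _)) (v - MvPowerSeries.C (constantCoeff v)) = 0 := h1
    replace h2 : (σ.comp (algebraMap _ _)) (v - MvPowerSeries.C (constantCoeff v)) = 0 := h2
    rw [map_sub, sub_eq_zero] at h1 h2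
    exact h1.trans ((hσC _).symm.trans h2.symm)
  let : Algebra (MvPowerSeries (Fin (d + 1)) C) F := (ρ.comp (algebraMap (MvPowerSeries (Fin (d + 1)) C) (MvPowerSeries (Fin (d + s + 1)) (WittVector p L)))).toAlgebra
  let ρW : (MvPowerSeries (Fin (d + s + 1)) (WittVector p L)) →ₐ[(MvPowerSeries (Fin (d + 1)) C)] F := { ρ with commutes' := fun _ => rfl }
  let ρA : A →ₐ[(MvPowerSeries (Fin (d + 1)) C)] F := { σ with commutes' := fun v => (hρv v).symm }
  let π : B →+* F := (Algebra.TensorProduct.productMap ρW ρA).toRingHom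
  have hπW : ∀ w, π (algebraMap (MvPowerSeries (Fin (d + s + 1)) (WittVector p L)) B w) = ρ w := fun w => by
    show Algebra.TensorProduct.productMap ρW ρA (w ⊗ₜ[(MvPowerSeries (Fin (d + 1)) C)] 1) = _
    rw [Algebra.TensorProduct.productMap_apply_tmul, map_one, mul_one]
    rfl
  have hπA : ∀ a, π (algebraMap A B a) = σ a := fun a => by
    show Algebra.TensorProduct.productMap ρW ρA ((1 : (MvPowerSeries (Fin (d + s + 1)) (WittVector p L))) ⊗ₜ[(MvPowerSeries (Fin (d + 1)) C)] a) = _
    rw [Algebra.TensorProduct.productMap_apply_tmul, map_one, one_mul]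
    rfl
  have hπsurj : Function.Surjective π := fun f => by
    obtain ⟨w, hw⟩ := hρsurj f
    exact ⟨algebraMap (MvPowerSeries (Fin (d + s + 1)) (WittVector p L)) B w, (hπW w).trans hw⟩
  -- the kernel
  let J : Ideal B := (maximalIdeal A).map (algebraMap A B)
  have hJ : J ≤ maximalIdeal B := by
    rw [hBmax]
    exact le_sup_right
  have hJπ : J ≤ RingHom.ker π := Ideal.map_le_iff_le_comap.2 fun a ha => by
    rw [Ideal.mem_comap, RingHom.mem_ker, hπA, hσm a ha]
  have hVB : ∀ v, algebraMap A B (algebraMap (MvPowerSeries (Fin (d + 1)) C) A v) =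
      algebraMap (MvPowerSeries (Fin (d + s + 1)) (WittVector p L)) B (algebraMap (MvPowerSeries (Fin (d + 1)) C) (MvPowerSeries (Fin (d + s + 1)) (WittVector p L)) v) := fun v => by
    rw [← IsScalarTower.algebraMap_apply, ← IsScalarTower.algebraMap_apply]
  have hdec : ∀ b : B, ∃ w : (MvPowerSeries (Fin (d + s + 1)) (WittVector p L)), b - algebraMap (MvPowerSeries (Fin (d + s + 1)) (WittVector p L)) B w ∈ J := by
    intro b
    induction b using TensorProduct.induction_on with
    | zero => exact ⟨0, by simp⟩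
    | tmul w a =>
      obtain ⟨c, hc⟩ := hres a
      refine ⟨w * algebraMap (MvPowerSeries (Fin (d + 1)) C) (MvPowerSeries (Fin (d + s + 1)) (WittVector p L)) (MvPowerSeries.C c), ?_⟩
      have h1 : w ⊗ₜ[(MvPowerSeries (Fin (d + 1)) C)] a -
          algebraMap (MvPowerSeries (Fin (d + s + 1)) (WittVector p L)) B (w * algebraMap (MvPowerSeries (Fin (d + 1)) C) (MvPowerSeries (Fin (d + s + 1)) (WittVector p L)) (MvPowerSeries.C c)) =
          algebraMap (MvPowerSeries (Fin (d + s + 1)) (WittVector p L)) B w * algebraMap A B (a - algebraMap (MvPowerSeries (Fin (d + 1)) C) A (MvPowerSeries.C c)) := by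
        rw [map_mul, map_sub, hVB, mul_sub]
        congr 1
        show _ = (w ⊗ₜ[(MvPowerSeries (Fin (d + 1)) C)] (1 : A)) * ((1 : (MvPowerSeries (Fin (d + s + 1)) (WittVector p L))) ⊗ₜ[(MvPowerSeries (Fin (d + 1)) C)] a)
        rw [Algebra.TensorProduct.tmul_mul_tmul, mul_one, one_mul]
      rw [h1]
      exact Ideal.mul_mem_left _ _ (Ideal.mem_map_of_mem _ hc)
    | add b b' hb hb' =>
      obtain ⟨w, hw⟩ := hb
      obtain ⟨w', hw'⟩ := hb'
      refine ⟨w + w', ?_⟩
      rw [map_add, add_sub_add_comm]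
      exact add_mem hw hw'
  have hker : RingHom.ker π = J := le_antisymm (fun b hb => by
    obtain ⟨w, hw⟩ := hdec b
    have h0 : ρ w = 0 := by
      have h := RingHom.mem_ker.1 (hJπ hw)
      rwa [map_sub, RingHom.mem_ker.1 hb, hπW, zero_sub, neg_eq_zero] at h
    suffices h1 : algebraMap (MvPowerSeries (Fin (d + s + 1)) (WittVector p L)) B w ∈ J by simpa using add_mem hw h1
    have hdvd : ∀ t : Fin s →₀ ℕ, (p : WittVector p L) ∣ coeff (t.embDomain (embZ d s)) w := by
      intro t
      rw [Cohen.p_dvd_iff, ← hρ, h0, map_zero]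
    choose q hq using hdvd
    let Q : MvPowerSeries (Fin s) (WittVector p L) := q
    have hQ : ∀ t, coeff t Q = q t := fun _ => rfl
    have hx : w - (p : (MvPowerSeries (Fin (d + s + 1)) (WittVector p L))) * rename (embZ d s) Q ∈
        Ideal.span (Set.range fun i => (X (embX d s i) : (MvPowerSeries (Fin (d + s + 1)) (WittVector p L)))) := by
      refine mem_span_of_coeff (embX d s) _ fun m hm => ?_
      have hrange : (m.support : Set (Fin (d + s + 1))) ⊆ Set.range (embZ d s) := by
        intro k hk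
        rcases exists_emb_eq d s k with ⟨j, rfl⟩ | ⟨i, rfl⟩
        · exact absurd (DFunLike.congr_fun hm j) (by simpa using hk)
        · exact ⟨i, rfl⟩
      rw [← Finsupp.embDomain_comapDomain hrange, map_sub,
        ← map_natCast (MvPowerSeries.C : WittVector p L →+* (MvPowerSeries (Fin (d + s + 1)) (WittVector p L))), coeff_C_mul, coeff_embDomain_rename,
        hQ, ← hq, sub_self]
    have hxJ : Ideal.span (Set.range fun i => (X (embX d s i) : (MvPowerSeries (Fin (d + s + 1)) (WittVector p L)))) ≤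
        J.comap (algebraMap (MvPowerSeries (Fin (d + s + 1)) (WittVector p L)) B) := by
      rw [Ideal.span_le]
      rintro _ ⟨i, rfl⟩
      simp only [SetLike.mem_coe, Ideal.mem_comap]
      rw [← hψX, ← hVB]
      exact Ideal.mem_map_of_mem _ (map_nonunit _ _ ((mem_maximalIdeal _).2 fun h => by
        simpa using isUnit_iff_constantCoeff.1 h))
    have hpJ : algebraMap (MvPowerSeries (Fin (d + s + 1)) (WittVector p L)) B (p : (MvPowerSeries (Fin (d + s + 1)) (WittVector p L))) ∈ J := by
      rw [map_natCast, ← map_natCast (algebraMap A B)]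
      refine Ideal.mem_map_of_mem _ ?_
      rw [← map_natCast θA, mem_maximalIdeal, mem_nonunits_iff]
      exact fun h => hC.not_isUnit (IsLocalHom.map_nonunit (f := θA) _ h)
    have h2 : algebraMap (MvPowerSeries (Fin (d + s + 1)) (WittVector p L)) B (w - (p : (MvPowerSeries (Fin (d + s + 1)) (WittVector p L))) * rename (embZ d s) Q) ∈ J := hxJ hx
    rw [map_sub, map_mul] at h2
    simpa using add_mem h2 (J.mul_mem_right (algebraMap (MvPowerSeries (Fin (d + s + 1)) (WittVector p L)) B (rename (embZ d s) Q)) hpJ)) hJπ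
  exact Imperfect.exists_finRes_of_fibre (maximalIdeal A) π hπsurj hker hJ
    (fun Q => Diag.exists_finRes L s Q) T

end Vale.Agent.P202.Mixed.Chart
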