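import Vale.Agent.P202.RingSide.Growth

/-!
# P202 mixed characteristic, chart: lengths under a change of rings
-/

noncomputable section

namespace Vale.Agent.P202.Mixed.Chart

open IsLocalRing

/-- Lengths of extended quotients: a finite length quotient of the source costs one closed fibre
per unit of length. -/
theorem length_quotient_map_le {V W : Type*} [CommRing V] [IsLocalRing V] [CommRing W]
    (φ : V →+* W) (J : Ideal W) :
    ∀ (n : ℕ) (I : Ideal V), (∃ r, maximalIdeal V ^ r ≤ I) → Module.length V (V ⧸ I) ≤ (n : ℕ∞) →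
      Module.length W (W ⧸ (I.map φ ⊔ J)) ≤
        (n : ℕ∞) * Module.length W (W ⧸ ((maximalIdeal V).map φ ⊔ J)) := by
  intro n
  induction n with
  | zero =>
    intro I _ h
    have hsub : Subsingleton (V ⧸ I) :=
      Module.length_eq_zero_iff.1 (le_antisymm (by simpa using h) (zero_le))
    have : I = ⊤ := Ideal.Quotient.subsingleton_iff.1 hsub
    subst this
    rw [Ideal.map_top, top_sup_eq]
    simp [Module.length_eq_zero_iff, Ideal.Quotient.subsingleton_iff]
  | succ n ih =>
    intro I hr h
    by_cases hI : I = ⊤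
    · subst hI
      rw [Ideal.map_top, top_sup_eq]
      simp [Module.length_eq_zero_iff, Ideal.Quotient.subsingleton_iff]
    classical
    set j := Nat.find hr with hj
    have hj0 : j ≠ 0 := fun e => hI (top_le_iff.1 (by
      have h1 := Nat.find_spec hr
      rwa [← hj, e, pow_zero, Ideal.one_eq_top] at h1))
    obtain ⟨a, ha, haI⟩ := SetLike.not_le_iff_exists.1
      (Nat.find_min hr (show j - 1 < j by omega))
    set I' := I ⊔ Ideal.span {a}
    have hma : ∀ c ∈ maximalIdeal V, c * a ∈ I := fun c hc => by
      refine Nat.find_spec hr ?_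
      have h1 := Ideal.mul_mem_mul hc ha
      rwa [← pow_succ', Nat.sub_add_cancel (Nat.one_le_iff_ne_zero.2 hj0)] at h1
    have hlen : Module.length V (V ⧸ I') ≤ (n : ℕ∞) := by
      have h1 := length_quotient_eq_add (le_sup_left : I ≤ I')
      have h2 : (1 : ℕ∞) ≤ Module.length V (Submodule.map I.mkQ I') := by
        rw [ENat.one_le_iff_ne_zero, ← pos_iff_ne_zero, Module.length_pos_iff]
        refine ⟨⟨⟨I.mkQ a, Submodule.mem_map_of_mem
          (Ideal.mem_sup_right (Ideal.mem_span_singleton_self a))⟩, 0, fun e => haI ?_⟩⟩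
        exact (Submodule.Quotient.mk_eq_zero I).1 (congrArg Subtype.val e)
      rw [h1] at h
      have h3 : 1 + Module.length V (V ⧸ I') ≤ ((n + 1 : ℕ) : ℕ∞) :=
        (add_le_add h2 le_rfl).trans h
      rw [Nat.cast_add, Nat.cast_one, add_comm 1] at h3
      exact (ENat.add_le_add_iff_right ENat.one_ne_top).1 h3
    have hle : I.map φ ⊔ J ≤ I'.map φ ⊔ J := sup_le_sup_right (Ideal.map_mono le_sup_left) _
    rw [length_quotient_eq_add hle, Nat.cast_add, Nat.cast_one, add_mul, one_mul, add_comm]
    refine add_le_add (ih I' ⟨_, (Nat.find_spec hr).trans le_sup_left⟩ hlen) ?_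
    refine (length_map_mkQ_le (J := (maximalIdeal V).map φ ⊔ J) {φ a} ?_ ?_).trans (by simp)
    · rw [Finset.coe_singleton, ← sup_assoc, Ideal.map_sup, Ideal.map_span, Set.image_singleton]
      exact le_of_eq (by ac_rfl)
    · intro b hb
      rw [Finset.mem_singleton.1 hb]
      intro c hc
      have hsup : (maximalIdeal V).map φ ⊔ J ≤
          Submodule.comap (LinearMap.mulRight W (φ a)) (I.map φ ⊔ J) := by
        refine sup_le ?_ fun x hx => Ideal.mem_sup_right (Ideal.mul_mem_right _ _ hx)
        rw [Ideal.map, Ideal.span, Submodule.span_le]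
        rintro _ ⟨x, hx, rfl⟩
        refine Ideal.mem_sup_left ?_
        show φ x * φ a ∈ I.map φ
        rw [← map_mul]
        exact Ideal.mem_map_of_mem _ (hma x hx)
      exact hsup hc

/-- Adding the `j`-th power of an element costs at most `j` times adding the element. -/
theorem length_quotient_sup_pow_le {W : Type*} [CommRing W] (I : Ideal W) (a : W) :
    ∀ j : ℕ, Module.length W (W ⧸ (I ⊔ Ideal.span {a ^ j})) ≤
      (j : ℕ∞) * Module.length W (W ⧸ (I ⊔ Ideal.span {a}))
  | 0 => by simp [Module.length_eq_zero_iff, Ideal.Quotient.subsingleton_iff]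
  | j + 1 => by
    have hle : I ⊔ Ideal.span {a ^ (j + 1)} ≤ I ⊔ Ideal.span {a ^ j} :=
      sup_le_sup_left (Ideal.span_singleton_le_span_singleton.2 (pow_dvd_pow a j.le_succ)) _
    rw [length_quotient_eq_add hle, Nat.cast_add, Nat.cast_one, add_mul, one_mul, add_comm]
    refine add_le_add (length_quotient_sup_pow_le I a j) ?_
    refine (length_map_mkQ_le (J := I ⊔ Ideal.span {a}) {a ^ j} ?_ ?_).trans (by simp)
    · rw [Finset.coe_singleton]
      exact sup_le (le_sup_of_le_right le_sup_left) le_sup_left
    · intro b hb c hc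
      rw [Finset.mem_singleton.1 hb]
      obtain ⟨x, hx, y, hy, rfl⟩ := Submodule.mem_sup.1 hc
      obtain ⟨r, rfl⟩ := Ideal.mem_span_singleton'.1 hy
      rw [add_mul, mul_assoc, ← pow_succ']
      exact add_mem (Ideal.mem_sup_left (Ideal.mul_mem_right _ _ hx))
        (Ideal.mem_sup_right (Ideal.mul_mem_left _ _ (Ideal.mem_span_singleton_self _)))

/-- Adding `j`-th powers of `s` elements costs at most `j ^ s` times adding the elements. -/
theorem length_quotient_sup_powers_le {W : Type*} [CommRing W] (j : ℕ) :
    ∀ (s : ℕ) (I : Ideal W) (z : Fin s → W),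
      Module.length W (W ⧸ (I ⊔ Ideal.span (Set.range fun i => z i ^ j))) ≤
        ((j ^ s : ℕ) : ℕ∞) * Module.length W (W ⧸ (I ⊔ Ideal.span (Set.range z))) := by
  intro s
  induction s with
  | zero => intro I z; rw [pow_zero, Nat.cast_one, one_mul, Set.range_eq_empty, Set.range_eq_empty]
  | succ s ih =>
    intro I z
    have hspan : ∀ w : Fin (s + 1) → W, Ideal.span (Set.range w) =
        Ideal.span {w (Fin.last s)} ⊔ Ideal.span (Set.range fun i : Fin s => w i.castSucc) := by
      intro w
      rw [← Ideal.span_union]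
      congr 1
      ext x
      constructor
      · rintro ⟨i, rfl⟩
        induction i using Fin.lastCases with
        | last => exact Or.inl rfl
        | cast i => exact Or.inr ⟨i, rfl⟩
      · rintro (rfl | ⟨i, rfl⟩) <;> exact ⟨_, rfl⟩
    rw [hspan, hspan, ← sup_assoc, ← sup_assoc]
    refine (ih _ fun i => z i.castSucc).trans ?_
    rw [sup_right_comm I (Ideal.span {z (Fin.last s) ^ j}),
      sup_right_comm I (Ideal.span {z (Fin.last s)}), pow_succ, Nat.cast_mul, mul_assoc]
    gcongr
    exact length_quotient_sup_pow_le _ _ j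

end Vale.Agent.P202.Mixed.Chart
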