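import Vale.Agent.P202.Mixed.Chart.Fibre
import Vale.Agent.P202.Reduce.FlatInvariant

/-!
# P202 mixed characteristic: the chart

A complete target of a model with fibre of finite length is a quotient of a model over the Witt
vectors of its residue field, of finite projective dimension.
-/

noncomputable section

namespace Vale.Agent.P202.Mixed.Chart

open IsLocalRing MvPowerSeries TensorProduct

universe u

/-- Maps out of power series into a complete local ring are determined by the coefficients and the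
variables. -/
theorem ringHom_ext_series {k : Type*} [CommRing k] {ι : Type*} [Finite ι] {T : Type*} [CommRing T]
    [IsLocalRing T] [IsHausdorff (maximalIdeal T) T] {f g : MvPowerSeries ι k →+* T}
    (hC : ∀ c, f (MvPowerSeries.C c) = g (MvPowerSeries.C c)) (hX : ∀ i, f (X i) = g (X i))
    (hm : ∀ i, f (X i) ∈ maximalIdeal T) : f = g := by
  refine RingHom.ext fun F => sub_eq_zero.1 (IsHausdorff.haus' (I := maximalIdeal T) _ fun n => ?_)
  rw [SModEq.zero, smul_eq_mul, Ideal.mul_top]
  have hp : f.comp MvPolynomial.coeToMvPowerSeries.ringHom =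
      g.comp MvPolynomial.coeToMvPowerSeries.ringHom :=
    MvPolynomial.ringHom_ext (fun c => by simpa using hC c) (fun i => by simpa using hX i)
  have hq := RingHom.congr_fun hp (truncTotal n F)
  simp only [RingHom.comp_apply, MvPolynomial.coeToMvPowerSeries.ringHom_apply] at hq
  have hmem : F - (truncTotal n F : MvPowerSeries ι k) ∈
      Ideal.span (Set.range (X : ι → MvPowerSeries ι k)) ^ n :=
    mem_span_X_pow fun t ht => by simp [coeff_truncTotal _ ht]
  have h1 : ∀ h : MvPowerSeries ι k →+* T, (∀ i, h (X i) ∈ maximalIdeal T) →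
      h (F - (truncTotal n F : MvPowerSeries ι k)) ∈ maximalIdeal T ^ n := fun h hh => by
    have h2 := Ideal.mem_map_of_mem h hmem
    rw [Ideal.map_pow] at h2
    refine Ideal.pow_right_mono ?_ n h2
    rw [Ideal.map_span, Ideal.span_le]
    rintro _ ⟨_, ⟨i, rfl⟩, rfl⟩
    exact hh i
  have := sub_mem (h1 f hm) (h1 g fun i => hX i ▸ hm i)
  simpa [hq] using this

/-- The chart, from the flat change of parameter rings. -/
theorem chartStatement (hS : SeriesFlatStatement.{u}) : ChartStatement.{u} := by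
  classical
  intro p _ C _ _ hC A _ _ _ _ _ d hd iAlg D Mo T _ _ _ _ _ g hgl hgf hr
  have := hC.noetherian
  have := hC.complete
  have : Module.Finite (MvPowerSeries (Fin (d + 1)) C) A := Mo.finite
  have : IsLocalHom (algebraMap (MvPowerSeries (Fin (d + 1)) C) A) := by
    refine ((IsLocalRing.local_hom_TFAE (algebraMap (MvPowerSeries (Fin (d + 1)) C) A)).out 0 2).2 ?_
    rw [Ideal.map_le_iff_le_comap]
    exact (IsLocalRing.eq_maximalIdeal
      (Ideal.isMaximal_comap_of_isIntegral_of_isMaximal (R := (MvPowerSeries (Fin (d + 1)) C)) (maximalIdeal A))).ge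
  have hpA : (p : A) ∈ maximalIdeal A := by
    rw [← map_natCast (algebraMap (MvPowerSeries (Fin (d + 1)) C) A)]
    refine map_nonunit _ _ ((mem_maximalIdeal _).2 fun h => hC.not_isUnit ?_)
    simpa using isUnit_iff_constantCoeff.1 h
  have hgm : (maximalIdeal A).map g ≤ maximalIdeal T := ((IsLocalRing.local_hom_TFAE g).out 0 2).1 hgl
  let L := ResidueField T
  have : CharP L p := by
    refine (CharP.charP_iff_prime_eq_zero (Fact.out : p.Prime)).2 ?_
    rw [← map_natCast (residue T), residue_eq_zero_iff, ← map_natCast g]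
    exact hgm (Ideal.mem_map_of_mem g hpA)
  have : PerfectRing L p := PerfectField.toPerfectRing p
  have : IsAdicComplete (maximalIdeal (WittVector p L)) (WittVector p L) := isAdicComplete_witt p L
  obtain ⟨τ, hτ⟩ := exists_wittHom p L T (RingHom.id L)
  -- generators of the maximal ideal
  obtain ⟨n₀, z₀, hz₀⟩ := Submodule.fg_iff_exists_fin_generating_family.1
    (IsNoetherian.noetherian (maximalIdeal T))
  let s := n₀ + 1
  let z : Fin s → T := Fin.cons 0 z₀
  have hzm : ∀ i, z i ∈ maximalIdeal T := Fin.cases (zero_mem _)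
    fun j => hz₀ ▸ Submodule.subset_span (Set.mem_range_self j)
  obtain ⟨πz, hzC, hzX, -⟩ := exists_evalHom τ z hzm
  have hzsurj : Function.Surjective πz := by
    refine surjective_powerSeriesHom πz (fun t => ?_) (le_antisymm ?_ ?_)
    · obtain ⟨w, hw⟩ := WittVector.constantCoeff_surjective p (residue T t)
      refine ⟨w, ?_⟩
      rw [← residue_eq_zero_iff, map_sub, hzC, hτ, RingHom.id_apply, hw, sub_self]
    · refine hz₀.ge.trans (Ideal.span_le.2 ?_)
      rintro _ ⟨j, rfl⟩
      exact Ideal.subset_span ⟨j.succ, (hzX _).trans (Fin.cons_succ _ _ j)⟩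
    · rw [Ideal.span_le]
      rintro _ ⟨i, rfl⟩
      show πz (X i) ∈ maximalIdeal T
      rw [hzX]
      exact hzm i
  have : IsAdicComplete (maximalIdeal (MvPowerSeries (Fin s) (WittVector p L)))
      (MvPowerSeries (Fin s) (WittVector p L)) := isAdicComplete_mvPowerSeries
  let θA : C →+* A := (algebraMap (MvPowerSeries (Fin (d + 1)) C) A).comp MvPowerSeries.C
  have : IsLocalHom θA := ⟨fun a ha => by
    have h := IsLocalHom.map_nonunit (f := algebraMap (MvPowerSeries (Fin (d + 1)) C) A) _ ha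
    simpa using isUnit_iff_constantCoeff.1 h⟩
  obtain ⟨θz, hθzl, hθz⟩ := hC.lift _ T πz (g.comp θA) hzsurj inferInstance
  let θ : C →+* (MvPowerSeries (Fin (d + s + 1)) (WittVector p L)) := (rename (embZ d s)).toRingHom.comp θz
  have hθcc : ∀ c, constantCoeff (θ c) = constantCoeff (θz c) := fun c => constantCoeff_rename _ _
  have hθ0 : ∀ c, (p : WittVector p L) ∣ constantCoeff (θ c) → (p : C) ∣ c := by
    intro c hc
    rw [← Ideal.mem_span_singleton, ← hC.max_eq, mem_maximalIdeal, mem_nonunits_iff]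
    intro hu
    have h1 : IsUnit (constantCoeff (θ c)) := hθcc c ▸ (hu.map θz).map constantCoeff
    rw [← Ideal.mem_span_singleton, ← maximalIdeal_witt p L] at hc
    exact (mem_maximalIdeal _).1 hc h1
  have hθu : ∀ a ∈ maximalIdeal C, ¬ IsUnit (θ a) := fun a ha h => by
    have h1 := isUnit_iff_constantCoeff.1 h
    rw [hθcc] at h1
    exact (mem_maximalIdeal _).1 ha
      (IsLocalHom.map_nonunit (f := θz) a (isUnit_iff_constantCoeff.2 h1))
  obtain ⟨ψ, hψC, hψX, hψf⟩ := hS p C hC L (d + 1) (d + s + 1) θ hθu (embX d s) (embX d s).injective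
  have hθfree : ∀ c (m : Fin (d + s + 1) →₀ ℕ), part (embX d s) m ≠ 0 → coeff m (θ c) = 0 :=
    fun c m hm => coeff_rename_embZ d s (θz c) m hm
  -- the map to the target
  let x : Fin (d + s + 1) → T := fun k =>
    if h : (k : ℕ) < d + 1 then g (algebraMap (MvPowerSeries (Fin (d + 1)) C) A (X ⟨k, h⟩)) else z ⟨k - (d + 1), by omega⟩
  have hxX : ∀ i, x (embX d s i) = g (algebraMap (MvPowerSeries (Fin (d + 1)) C) A (X i)) := fun i => dif_pos i.isLt
  have hxZ : ∀ i, x (embZ d s i) = z i := fun i => by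
    show dite _ _ _ = _
    rw [dif_neg (show ¬ ((embZ d s i : Fin _) : ℕ) < d + 1 from by
      show ¬ d + 1 + (i : ℕ) < d + 1
      omega)]
    congr 1
    apply Fin.ext
    show d + 1 + (i : ℕ) - (d + 1) = i
    omega
  have hXV : ∀ i, (X i : (MvPowerSeries (Fin (d + 1)) C)) ∈ maximalIdeal (MvPowerSeries (Fin (d + 1)) C) := fun i => (mem_maximalIdeal _).2 fun h => by
    simpa using isUnit_iff_constantCoeff.1 h
  have hxm : ∀ k, x k ∈ maximalIdeal T := fun k => by
    rcases exists_emb_eq d s k with ⟨i, rfl⟩ | ⟨i, rfl⟩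
    · rw [hxX]
      exact hgm (Ideal.mem_map_of_mem g (map_nonunit _ _ (hXV i)))
    · rw [hxZ]
      exact hzm i
  obtain ⟨π, hπC, hπX, -⟩ := exists_evalHom τ x hxm
  have hπr : π.comp (rename (embZ d s)).toRingHom = πz := by
    refine ringHom_ext_series (fun c => ?_) (fun i => ?_) fun i => ?_
    · simp [hπC, hzC]
    · simp [hπX, hxZ, hzX]
    · simp [hπX, hxZ, hzm]
  have hπsurj : Function.Surjective π := fun t => by
    obtain ⟨F, hF⟩ := hzsurj t
    exact ⟨rename (embZ d s) F, (RingHom.congr_fun hπr F).trans hF⟩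
  have hπv : π.comp ψ = g.comp (algebraMap (MvPowerSeries (Fin (d + 1)) C) A) := by
    refine ringHom_ext_series (fun c => ?_) (fun i => ?_) fun i => ?_
    · rw [RingHom.comp_apply, hψC]
      exact (RingHom.congr_fun hπr (θz c)).trans (RingHom.congr_fun hθz c)
    · rw [RingHom.comp_apply, hψX, hπX, hxX]
      rfl
    · rw [RingHom.comp_apply, hψX, hπX]
      exact hxm _
  -- the base change
  let : Algebra (MvPowerSeries (Fin (d + 1)) C) (MvPowerSeries (Fin (d + s + 1)) (WittVector p L)) := ψ.toAlgebra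
  have : Module.Flat (MvPowerSeries (Fin (d + 1)) C) (MvPowerSeries (Fin (d + s + 1)) (WittVector p L)) := hψf
  let : Algebra A T := g.toAlgebra
  have : Module.Flat A T := hgf
  let : Algebra (MvPowerSeries (Fin (d + 1)) C) T := (g.comp (algebraMap (MvPowerSeries (Fin (d + 1)) C) A)).toAlgebra
  have : IsScalarTower (MvPowerSeries (Fin (d + 1)) C) A T := IsScalarTower.of_algebraMap_eq fun _ => rfl
  have : IsLocalHom (algebraMap (MvPowerSeries (Fin (d + 1)) C) (MvPowerSeries (Fin (d + s + 1)) (WittVector p L))) := by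
    refine ((IsLocalRing.local_hom_TFAE (algebraMap (MvPowerSeries (Fin (d + 1)) C) (MvPowerSeries (Fin (d + s + 1)) (WittVector p L)))).out 0 2).2 ?_
    refine (Ideal.map_mono (maximalIdeal_series_le hC.max_eq)).trans ?_
    rw [Ideal.map_sup, Ideal.map_span, Ideal.map_span, Set.image_singleton, map_natCast]
    refine sup_le ((Ideal.span_singleton_le_iff_mem _).2 ((mem_maximalIdeal _).2 fun h => ?_))
      (Ideal.span_le.2 ?_)
    · have h1 : IsUnit ((p : ℕ) : WittVector p L) := by
        simpa using isUnit_iff_constantCoeff.1 h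
      exact (mem_maximalIdeal _).1 ((maximalIdeal_witt p L).symm ▸ Ideal.mem_span_singleton_self _) h1
    · rintro _ ⟨_, ⟨i, rfl⟩, rfl⟩
      show ψ (X i) ∈ maximalIdeal (MvPowerSeries (Fin (d + s + 1)) (WittVector p L))
      rw [hψX]
      exact (mem_maximalIdeal _).2 fun h => by simpa using isUnit_iff_constantCoeff.1 h
  let πV : (MvPowerSeries (Fin (d + s + 1)) (WittVector p L)) →ₐ[(MvPowerSeries (Fin (d + 1)) C)] T := { π with commutes' := fun c => RingHom.congr_fun hπv c }
  let χ : (MvPowerSeries (Fin (d + s + 1)) (WittVector p L)) ⊗[(MvPowerSeries (Fin (d + 1)) C)] A →ₐ[(MvPowerSeries (Fin (d + 1)) C)] T :=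
    Algebra.TensorProduct.productMap πV (IsScalarTower.toAlgHom (MvPowerSeries (Fin (d + 1)) C) A T)
  let : Algebra ((MvPowerSeries (Fin (d + s + 1)) (WittVector p L)) ⊗[(MvPowerSeries (Fin (d + 1)) C)] A) T := χ.toRingHom.toAlgebra
  have hχW : ∀ w, algebraMap ((MvPowerSeries (Fin (d + s + 1)) (WittVector p L)) ⊗[(MvPowerSeries (Fin (d + 1)) C)] A) T (algebraMap (MvPowerSeries (Fin (d + s + 1)) (WittVector p L)) ((MvPowerSeries (Fin (d + s + 1)) (WittVector p L)) ⊗[(MvPowerSeries (Fin (d + 1)) C)] A) w) = π w := fun w => by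
    show Algebra.TensorProduct.productMap πV _ (w ⊗ₜ[(MvPowerSeries (Fin (d + 1)) C)] 1) = _
    rw [Algebra.TensorProduct.productMap_apply_tmul, map_one, mul_one]
    rfl
  have hχA : ∀ a, algebraMap ((MvPowerSeries (Fin (d + s + 1)) (WittVector p L)) ⊗[(MvPowerSeries (Fin (d + 1)) C)] A) T
      ((Algebra.TensorProduct.includeRight : A →ₐ[(MvPowerSeries (Fin (d + 1)) C)] (MvPowerSeries (Fin (d + s + 1)) (WittVector p L)) ⊗[(MvPowerSeries (Fin (d + 1)) C)] A) a) = g a := fun a => by
    show Algebra.TensorProduct.productMap πV _ ((1 : (MvPowerSeries (Fin (d + s + 1)) (WittVector p L))) ⊗ₜ[(MvPowerSeries (Fin (d + 1)) C)] a) = _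
    rw [Algebra.TensorProduct.productMap_apply_tmul, map_one, one_mul]
    rfl
  have hsurj : Function.Surjective (algebraMap ((MvPowerSeries (Fin (d + s + 1)) (WittVector p L)) ⊗[(MvPowerSeries (Fin (d + 1)) C)] A) T) := fun t => by
    obtain ⟨w, hw⟩ := hπsurj t
    exact ⟨algebraMap (MvPowerSeries (Fin (d + s + 1)) (WittVector p L)) _ w, (hχW w).trans hw⟩
  have : Module.Finite ((MvPowerSeries (Fin (d + s + 1)) (WittVector p L)) ⊗[(MvPowerSeries (Fin (d + 1)) C)] A) T :=
    Module.Finite.of_surjective (Algebra.linearMap ((MvPowerSeries (Fin (d + s + 1)) (WittVector p L)) ⊗[(MvPowerSeries (Fin (d + 1)) C)] A) T) hsurj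
  have : Nontrivial ((MvPowerSeries (Fin (d + s + 1)) (WittVector p L)) ⊗[(MvPowerSeries (Fin (d + 1)) C)] A) := (algebraMap ((MvPowerSeries (Fin (d + s + 1)) (WittVector p L)) ⊗[(MvPowerSeries (Fin (d + 1)) C)] A) T).domain_nontrivial
  have hresA : ∀ a : A, ∃ c : (MvPowerSeries (Fin (d + 1)) C), a - algebraMap (MvPowerSeries (Fin (d + 1)) C) A c ∈ maximalIdeal A := fun a =>
    ⟨_, (Mo.residue_surj a).choose_spec⟩
  obtain ⟨hBl, hBmax⟩ := Imperfect.isLocalRing_baseChange (V := (MvPowerSeries (Fin (d + 1)) C)) (W := (MvPowerSeries (Fin (d + s + 1)) (WittVector p L))) (A := A) hresA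
  have : IsNoetherianRing ((MvPowerSeries (Fin (d + s + 1)) (WittVector p L)) ⊗[(MvPowerSeries (Fin (d + 1)) C)] A) := IsNoetherianRing.of_finite (MvPowerSeries (Fin (d + s + 1)) (WittVector p L)) _
  obtain ⟨MoB, hMoB⟩ := exists_model hC θ hψC hψX hθfree hθ0 Mo hpA hBmax
  have hfr : Diag.FinRes ((MvPowerSeries (Fin (d + s + 1)) (WittVector p L)) ⊗[(MvPowerSeries (Fin (d + 1)) C)] A) s T := by
    letI := (Algebra.TensorProduct.rightAlgebra : Algebra A ((MvPowerSeries (Fin (d + s + 1)) (WittVector p L)) ⊗[(MvPowerSeries (Fin (d + 1)) C)] A))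
    have : IsScalarTower A ((MvPowerSeries (Fin (d + s + 1)) (WittVector p L)) ⊗[(MvPowerSeries (Fin (d + 1)) C)] A) T :=
      IsScalarTower.of_algebraMap_eq fun a => (hχA a).symm
    exact finRes_chart hC hψX Mo.residue_surj hBmax T
  obtain ⟨Φ, hΦ⟩ := Imperfect.exists_reso' s T hfr
  refine ⟨L, inferInstance, inferInstance, inferInstance, d + s, s, (MvPowerSeries (Fin (d + s + 1)) (WittVector p L)) ⊗[(MvPowerSeries (Fin (d + 1)) C)] A, inferInstance,
    inferInstance, inferInstance, inferInstance, inferInstance, MoB, Φ, by omega, by omega, hsurj,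
    hΦ, ?_⟩
  -- the quotient by the element is thin
  obtain ⟨r, hr⟩ := hr
  obtain ⟨c₀, hc₀⟩ := Mo.small
  obtain ⟨q, a, ha⟩ := Module.Finite.exists_fin (R := (MvPowerSeries (Fin (d + 1)) C)) (M := A)
  have hfib : Module.length T (T ⧸ ((maximalIdeal A).map g ⊔ ⊥)) ≠ ⊤ :=
    length_quotient_ne_top (r := r) (hr.trans le_sup_left)
  obtain ⟨l, hl⟩ := ENat.ne_top_iff_exists.1 hfib
  refine ⟨q * c₀ * l, fun N => ?_⟩
  set I : Ideal (MvPowerSeries (Fin (d + 1)) C) := Ideal.span {Mo.g, (p : (MvPowerSeries (Fin (d + 1)) C)) ^ Mo.b * Mo.G} ⊔ Ideal.span (Set.range X) ^ N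
  set K : Ideal A := I.map (algebraMap (MvPowerSeries (Fin (d + 1)) C) A)
  have hfin : Module.length (MvPowerSeries (Fin (d + 1)) C) ((MvPowerSeries (Fin (d + 1)) C) ⧸ I) ≠ ⊤ := fun h => by
    have h1 := hc₀ N
    rw [h, ENat.top_mul (by simp)] at h1
    exact absurd h1 (not_le.2 (WithTop.mul_lt_top (ENat.natCast_lt_top _) (ENat.natCast_lt_top _)))
  obtain ⟨n, hn⟩ := ENat.ne_top_iff_exists.1 hfin
  have hAK : Module.length A (A ⧸ K) ≤ ((q * n : ℕ) : ℕ∞) := by
    let φ : Fin q → ((MvPowerSeries (Fin (d + 1)) C) ⧸ I) →ₗ[(MvPowerSeries (Fin (d + 1)) C)] A ⧸ K := fun i =>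
      Submodule.liftQ I (LinearMap.toSpanSingleton (MvPowerSeries (Fin (d + 1)) C) (A ⧸ K) (Ideal.Quotient.mk K (a i)))
        fun v hv => by
          rw [LinearMap.mem_ker, LinearMap.toSpanSingleton_apply, Algebra.smul_def,
            IsScalarTower.algebraMap_apply (MvPowerSeries (Fin (d + 1)) C) A (A ⧸ K), Ideal.Quotient.algebraMap_eq, ← map_mul,
            Ideal.Quotient.eq_zero_iff_mem]
          exact Ideal.mul_mem_right _ _ (Ideal.mem_map_of_mem _ hv)
    let Φ' : (Fin q → (MvPowerSeries (Fin (d + 1)) C) ⧸ I) →ₗ[(MvPowerSeries (Fin (d + 1)) C)] A ⧸ K := LinearMap.lsum (MvPowerSeries (Fin (d + 1)) C) (fun _ => (MvPowerSeries (Fin (d + 1)) C) ⧸ I) (MvPowerSeries (Fin (d + 1)) C) φ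
    have hsur : Function.Surjective Φ' := fun y => by
      obtain ⟨b, rfl⟩ := Ideal.Quotient.mk_surjective y
      obtain ⟨v, hv⟩ := (Submodule.mem_span_range_iff_exists_fun (MvPowerSeries (Fin (d + 1)) C)).1 (ha ▸ Submodule.mem_top :
        b ∈ Submodule.span (MvPowerSeries (Fin (d + 1)) C) (Set.range a))
      refine ⟨fun i => Submodule.Quotient.mk (v i), ?_⟩
      rw [← hv, map_sum]
      simp only [Φ', LinearMap.lsum_apply, LinearMap.sum_apply, LinearMap.comp_apply,
        LinearMap.proj_apply, φ, Submodule.liftQ_apply, LinearMap.toSpanSingleton_apply]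
      refine Finset.sum_congr rfl fun i _ => ?_
      rw [Algebra.smul_def, Algebra.smul_def, IsScalarTower.algebraMap_apply (MvPowerSeries (Fin (d + 1)) C) A (A ⧸ K),
        Ideal.Quotient.algebraMap_eq, map_mul]
    calc Module.length A (A ⧸ K) = Module.length A (⊤ : Submodule A (A ⧸ K)) :=
          (Module.length_top).symm
      _ ≤ Module.length (MvPowerSeries (Fin (d + 1)) C) ((⊤ : Submodule A (A ⧸ K)).restrictScalars (MvPowerSeries (Fin (d + 1)) C)) :=
          Submodule.length_le_length_restrictScalars (MvPowerSeries (Fin (d + 1)) C) _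
      _ = Module.length (MvPowerSeries (Fin (d + 1)) C) (A ⧸ K) := by rw [Submodule.restrictScalars_top, Module.length_top]
      _ ≤ Module.length (MvPowerSeries (Fin (d + 1)) C) (Fin q → (MvPowerSeries (Fin (d + 1)) C) ⧸ I) := Module.length_le_of_surjective Φ' hsur
      _ = ((q * n : ℕ) : ℕ∞) := by rw [Module.length_pi, ← hn]; simp
  have hrad : ∃ r', maximalIdeal A ^ r' ≤ K := by
    obtain ⟨e, he⟩ : ∃ e, maximalIdeal A ^ e ≤ (Ideal.span (Set.range X)).map (algebraMap (MvPowerSeries (Fin (d + 1)) C) A) := by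
      obtain ⟨e, he⟩ := Mo.reduction
      refine ⟨e + 1, he.trans (Ideal.mul_le_left.trans ?_)⟩
      rw [Ideal.map_span, ← Set.range_comp]
      exact le_rfl
    refine ⟨e * N, ?_⟩
    rw [pow_mul]
    refine (Ideal.pow_right_mono he N).trans ?_
    rw [← Ideal.map_pow]
    exact Ideal.map_mono le_sup_right
  have hle : K.map g ⊔ ⊥ ≤ Ideal.span {algebraMap ((MvPowerSeries (Fin (d + s + 1)) (WittVector p L)) ⊗[(MvPowerSeries (Fin (d + 1)) C)] A) T MoB.h} ⊔ maximalIdeal T ^ N := by
    rw [sup_bot_eq, hMoB, hχA]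
    simp only [K, I, Ideal.map_map, Ideal.map_sup, Ideal.map_span, Ideal.map_pow, Set.image_pair]
    refine sup_le_sup (Ideal.span_le.2 ?_) (Ideal.pow_right_mono (Ideal.span_le.2 ?_) N)
    · rintro _ (rfl | rfl)
      · rw [show algebraMap (MvPowerSeries (Fin (d + 1)) C) A Mo.g = 0 from
          RingHom.mem_ker.1 (Mo.ker_eq.ge (Ideal.mem_span_singleton_self _)), map_zero]
        exact zero_mem _
      · exact Ideal.mem_span_singleton_self _
    · rintro _ ⟨_, ⟨_, ⟨i, rfl⟩, rfl⟩, rfl⟩
      exact hgm (Ideal.mem_map_of_mem g (map_nonunit _ _ (hXV i)))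
  refine (mul_le_mul_left ((length_quotient_mono hle).trans
    (length_quotient_map_le g ⊥ (q * n) K hrad hAK)) _).trans ?_
  rw [← hl]
  have hn' : ((n : ℕ) : ℕ∞) * ((N + 1 : ℕ) : ℕ∞) ≤ (c₀ : ℕ∞) * (((N + 1) ^ (d + 1) : ℕ) : ℕ∞) :=
    hn ▸ hc₀ N
  norm_cast at hn' ⊢
  calc q * n * l * (N + 1) = q * l * (n * (N + 1)) := by ring
    _ ≤ q * l * (c₀ * (N + 1) ^ (d + 1)) := Nat.mul_le_mul le_rfl hn'
    _ = q * c₀ * l * (N + 1) ^ (d + 1) := by ring

end Vale.Agent.P202.Mixed.Chart
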