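import Vale.Agent.P202.RingSide.Complete
import Mathlib.RingTheory.MvPowerSeries.Rename

/-!
# P202 mixed characteristic, chart: coefficients along a change of parameter rings

A map of power series rings sending the variables to some of the variables, with coefficients
mapped to series free of these variables, is computed coefficientwise.
-/

noncomputable section

namespace Vale.Agent.P202.Mixed.Chart

open MvPowerSeries Finset

variable {R : Type*} [CommRing R] {σ : Type*}

/-- A power of the ideal of the variables has no terms of small degree. -/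
theorem coeff_eq_zero_of_mem_span_X_pow {n : ℕ} {F : MvPowerSeries σ R}
    (hF : F ∈ Ideal.span (Set.range (X : σ → MvPowerSeries σ R)) ^ n) :
    ∀ t : σ →₀ ℕ, t.degree < n → coeff t F = 0 := by
  classical
  induction n generalizing F with
  | zero => exact fun t ht => absurd ht (Nat.not_lt_zero _)
  | succ n ih =>
    rw [pow_succ'] at hF
    induction hF using Submodule.mul_induction_on' with
    | mem_mul_mem a ha b hb =>
      intro t ht
      rw [coeff_mul]
      refine sum_eq_zero fun x hx => ?_
      rw [HasAntidiagonal.mem_antidiagonal] at hx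
      have hdeg : x.1.degree + x.2.degree = t.degree := by rw [← map_add, hx]
      by_cases h0 : x.1 = 0
      · have h1 : constantCoeff a = 0 := by
          refine Submodule.span_induction ?_ (map_zero _) ?_ ?_ ha
          · rintro _ ⟨i, rfl⟩
            simp
          · intro u v _ _ hu hv
            rw [map_add, hu, hv, add_zero]
          · intro c u _ hu
            rw [smul_eq_mul, map_mul, hu, mul_zero]
        rw [h0, coeff_zero_eq_constantCoeff_apply, h1, zero_mul]
      · have h1 : x.1.degree ≠ 0 := fun e => h0 ((Finsupp.degree_eq_zero_iff _).1 e)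
        rw [ih hb x.2 (by omega), mul_zero]
    | add a ha b hb iha ihb =>
      intro t ht
      rw [map_add, iha t ht, ihb t ht, add_zero]

variable {C : Type*} [CommRing C] {a : ℕ} [Finite σ]

/-- The exponents of the variables in the image. -/
def part (emb : Fin a ↪ σ) (m : σ →₀ ℕ) : Fin a →₀ ℕ :=
  m.comapDomain emb emb.injective.injOn

omit [Finite σ] in
@[simp]
theorem part_apply (emb : Fin a ↪ σ) (m : σ →₀ ℕ) (i : Fin a) : part emb m i = m (emb i) := rfl

omit [Finite σ] in
theorem part_embDomain (emb : Fin a ↪ σ) (t : Fin a →₀ ℕ) : part emb (t.embDomain emb) = t := by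
  ext i
  simp

/-- A map sending the variables to the variables `emb` with coefficients free of these is computed
coefficientwise. -/
theorem coeff_map_eq (emb : Fin a ↪ σ) (f : MvPowerSeries (Fin a) C →+* MvPowerSeries σ R)
    (θ : C →+* MvPowerSeries σ R) (hC : ∀ c, f (MvPowerSeries.C c) = θ c)
    (hX : ∀ i, f (X i) = X (emb i))
    (hθ : ∀ c (m : σ →₀ ℕ), part emb m ≠ 0 → coeff m (θ c) = 0) (F : MvPowerSeries (Fin a) C)
    (m : σ →₀ ℕ) :
    coeff m (f F) = coeff (m - (part emb m).embDomain emb) (θ (coeff (part emb m) F)) := by
  classical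
  have hmono : ∀ (t : Fin a →₀ ℕ) (c : C),
      f (monomial t c) = θ c * monomial (t.embDomain emb) 1 := by
    intro t
    induction t using Finsupp.induction with
    | zero => intro c; simp [monomial_zero_eq_C_apply, hC]
    | single_add i k t hi hk ih =>
      intro c
      rw [show monomial (Finsupp.single i k + t) c = monomial (Finsupp.single i k) 1 * monomial t c by
          rw [monomial_mul_monomial, one_mul], map_mul, ih, ← X_pow_eq, map_pow, hX, X_pow_eq,
        mul_left_comm, monomial_mul_monomial, mul_one, Finsupp.embDomain_add,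
        Finsupp.embDomain_single]
  set n := m.degree + 1
  set t₀ := part emb m with ht₀
  have hle : t₀.embDomain emb ≤ m := by
    intro j
    by_cases hj : j ∈ Set.range emb
    · obtain ⟨i, rfl⟩ := hj
      simp [t₀]
    · rw [Finsupp.embDomain_notin_range _ _ _ hj]
      exact Nat.zero_le _
  have hdeg : t₀.degree < n := by
    have h1 : (t₀.embDomain emb).degree = t₀.degree := by
      rw [Finsupp.degree_apply, Finsupp.degree_apply, Finsupp.support_embDomain, sum_map]
      simp
    have h2 : (t₀.embDomain emb).degree + (m - t₀.embDomain emb).degree = m.degree := by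
      rw [← map_add, add_tsub_cancel_of_le hle]
    omega
  have hrem : F - (truncTotal n F : MvPowerSeries (Fin a) C) ∈
      Ideal.span (Set.range (X : Fin a → MvPowerSeries (Fin a) C)) ^ n :=
    mem_span_X_pow fun t ht => by simp [coeff_truncTotal _ ht]
  have h0 : coeff m (f (F - (truncTotal n F : MvPowerSeries (Fin a) C))) = 0 := by
    refine coeff_eq_zero_of_mem_span_X_pow ?_ m (Nat.lt_succ_self _)
    have h1 := Ideal.mem_map_of_mem f hrem
    rw [Ideal.map_pow] at h1
    refine Ideal.pow_right_mono ?_ n h1
    rw [Ideal.map_span, Ideal.span_le]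
    rintro _ ⟨_, ⟨i, rfl⟩, rfl⟩
    rw [hX]
    exact Ideal.subset_span ⟨emb i, rfl⟩
  rw [map_sub, map_sub, sub_eq_zero] at h0
  rw [h0]
  conv_lhs =>
    rw [(truncTotal n F).as_sum, ← MvPolynomial.coeToMvPowerSeries.ringHom_apply, map_sum, map_sum,
      map_sum]
  simp only [MvPolynomial.coeToMvPowerSeries.ringHom_apply, MvPolynomial.coe_monomial, hmono]
  have hterm : ∀ t ∈ (truncTotal n F).support, t ≠ t₀ →
      coeff m (θ ((truncTotal n F).coeff t) * monomial (t.embDomain emb) 1) = 0 := by
    intro t _ ht
    rw [coeff_mul_monomial]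
    split_ifs with h
    · rw [mul_one]
      refine hθ _ _ fun h2 => ht ?_
      ext i
      have h3 := DFunLike.congr_fun h2 i
      have h4 := h (emb i)
      simp [t₀, Finsupp.tsub_apply] at h3 h4 ⊢
      omega
    · rfl
  rw [sum_eq_single t₀ hterm fun h => ?_]
  · rw [coeff_mul_monomial, if_pos hle, mul_one, coeff_truncTotal _ hdeg]
  · rw [MvPolynomial.notMem_support_iff.1 h]
    simp

omit [Finite σ] in
/-- A series without terms free of the variables `emb` lies in the ideal they span. -/
theorem mem_span_of_coeff (emb : Fin a ↪ σ) (F : MvPowerSeries σ R)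
    (hF : ∀ m, part emb m = 0 → coeff m F = 0) :
    F ∈ Ideal.span (Set.range fun i => (X (emb i) : MvPowerSeries σ R)) := by
  classical
  let G : Fin a → MvPowerSeries σ R := fun i m =>
    if ∀ j, j < i → m (emb j) = 0 then coeff (m + Finsupp.single (emb i) 1) F else 0
  have hG : ∀ i m, coeff m (G i) =
      if ∀ j, j < i → m (emb j) = 0 then coeff (m + Finsupp.single (emb i) 1) F else 0 :=
    fun _ _ => rfl
  have e : F = ∑ i, X (emb i) * G i := by
    ext m
    rw [map_sum]
    have hterm : ∀ i, coeff m (X (emb i) * G i) =
        if 1 ≤ m (emb i) ∧ ∀ j, j < i → m (emb j) = 0 then coeff m F else 0 := by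
      intro i
      rw [X, coeff_monomial_mul]
      by_cases h1 : Finsupp.single (emb i) 1 ≤ m
      · have h2 : 1 ≤ m (emb i) := Finsupp.single_le_iff.1 h1
        rw [if_pos h1, one_mul, hG, tsub_add_cancel_of_le h1]
        refine if_congr ⟨fun h => ⟨h2, fun j hj => ?_⟩, fun h j hj => ?_⟩ rfl rfl
        · simpa [Finsupp.single_apply, emb.injective.eq_iff, hj.ne'] using h j hj
        · simp [Finsupp.single_apply, emb.injective.eq_iff, hj.ne', h.2 j hj]
      · rw [if_neg h1, if_neg fun h => h1 (Finsupp.single_le_iff.2 h.1)]
    simp only [hterm]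
    by_cases h0 : part emb m = 0
    · rw [hF m h0]
      simp
    · have hne : (part emb m).support.Nonempty := Finsupp.support_nonempty_iff.2 h0
      set i₀ := (part emb m).support.min' hne
      have hi₀ : m (emb i₀) ≠ 0 := by simpa using (part emb m).support.min'_mem hne
      have hmin : ∀ j, j < i₀ → m (emb j) = 0 := fun j hj => by
        by_contra h
        exact absurd (min'_le _ j (by simpa using h)) (not_le.2 hj)
      rw [sum_eq_single i₀ (fun i _ hi => if_neg fun h => ?_) (by simp), if_pos ⟨by omega, hmin⟩]
      rcases lt_or_gt_of_ne hi with hlt | hgt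
      · exact absurd (hmin i hlt) (by omega)
      · exact hi₀ (h.2 i₀ hgt)
  rw [e]
  exact Submodule.sum_mem _ fun i _ => Ideal.mul_mem_right _ _ (Ideal.subset_span ⟨i, rfl⟩)

end Vale.Agent.P202.Mixed.Chart
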