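import Vale.Agent.P202.Mixed.Cohen.Ring

/-!
# P202 mixed characteristic, chart: maps out of the Witt vectors of a perfect field
-/

noncomputable section

namespace Vale.Agent.P202.Mixed.Chart

open IsLocalRing

universe u

variable (p : ℕ) [Fact p.Prime] (L : Type u) [Field L] [CharP L p] [PerfectRing L p]

theorem maximalIdeal_witt : maximalIdeal (WittVector p L) = Ideal.span {(p : WittVector p L)} := by
  rw [← WittVector.ker_constantCoeff]
  exact (IsLocalRing.eq_maximalIdeal
    (RingHom.ker_isMaximal_of_surjective (WittVector.constantCoeff : WittVector p L →+* L)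
      (WittVector.constantCoeff_surjective p))).symm

theorem isAdicComplete_witt : IsAdicComplete (maximalIdeal (WittVector p L)) (WittVector p L) := by
  rw [maximalIdeal_witt p L]
  infer_instance

/-- A complete local ring with residue field a perfect field `L` receives the Witt vectors of
`L`, onto the residue field. -/
theorem exists_wittHom (A : Type u) [CommRing A] [IsLocalRing A]
    [IsAdicComplete (maximalIdeal A) A] (e : L →+* ResidueField A) :
    ∃ f : WittVector p L →+* A, ∀ w, residue A (f w) = e (WittVector.constantCoeff w) := by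
  let ι := RingHom.id L
  have hspan : ∀ x, x ∈ pClosure p (∅ : Set L) := fun x => by
    obtain ⟨y, rfl⟩ := (PerfectRing.bijective_frobenius (R := L) (p := p)).2 x
    exact pow_mem_pClosure _ y
  have hB : PFree p (∅ : Set L) := fun b hb => absurd hb (Set.notMem_empty b)
  obtain ⟨f, hf, -⟩ := Cohen.exists_hom_cohen (p := p) ι hspan hB A e (fun _ => 0) (by simp)
  have hmem : ∀ w : WittVector p L, w ∈ Cohen.wittSub (p := p) ι :=
    fun w => ⟨WittVector.constantCoeff w, rfl⟩
  -- every Witt vector is congruent to an element of the Cohen ring modulo each power of `p`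
  have happrox : ∀ (n : ℕ) (w : WittVector p L), ∃ c : Cohen.cohenRing (p := p) ι ∅,
      (p : WittVector p L) ^ n ∣ w - ((c : Cohen.wittSub (p := p) ι) : WittVector p L) := by
    intro n
    induction n with
    | zero => intro w; exact ⟨0, by simp⟩
    | succ n ih =>
      intro w
      obtain ⟨c, hc⟩ := Cohen.resC_surjective (p := p) ι hspan (WittVector.constantCoeff w)
      obtain ⟨u, hu⟩ : (p : WittVector p L) ∣
          w - ((c : Cohen.wittSub (p := p) ι) : WittVector p L) := by
        rw [Cohen.p_dvd_iff, map_sub, ← Cohen.iota_resV, sub_eq_zero]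
        exact hc.symm
      obtain ⟨c', x, hx⟩ := ih u
      refine ⟨c + p * c', x, ?_⟩
      simp only [AddMemClass.coe_add, MulMemClass.coe_mul, SubringClass.coe_natCast]
      linear_combination hu + (p : WittVector p L) * hx
  have hC : ∀ w : WittVector p L,
      (⟨w, hmem w⟩ : Cohen.wittSub (p := p) ι) ∈ Cohen.cohenRing (p := p) ι ∅ := fun w => by
    rw [Cohen.mem_cohenRing]
    intro n
    obtain ⟨c, hc⟩ := happrox (n + 1) w
    have h : Ideal.Quotient.mk (Cohen.lvl (p := p) ι n) ⟨w, hmem w⟩ =
        Ideal.Quotient.mk _ (c : Cohen.wittSub (p := p) ι) := by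
      rw [Ideal.Quotient.eq, Cohen.mem_lvl]
      simpa using hc
    rw [h]
    exact Cohen.mk_mem_lvlRing ι n c
  let j : WittVector p L →+* Cohen.cohenRing (p := p) ι ∅ :=
    { toFun := fun w => ⟨⟨w, hmem w⟩, hC w⟩
      map_one' := rfl
      map_mul' := fun _ _ => rfl
      map_zero' := rfl
      map_add' := fun _ _ => rfl }
  refine ⟨f.comp j, fun w => ?_⟩
  rw [RingHom.comp_apply, hf]
  congr 1
  exact Cohen.iota_resV ι (⟨w, hmem w⟩ : Cohen.wittSub (p := p) ι)

end Vale.Agent.P202.Mixed.Chart
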