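import Vale.Agent.P202.Mixed.Interface
import Vale.Agent.P202.Mixed.Source.Series
import Vale.Agent.P202.Mixed.Chart.Series
import Vale.Agent.P202.Mixed.Chart.Length
import Vale.Agent.P202.Mixed.Chart.Witt
import Vale.Agent.P202.Imperfect.Base

/-!
# P202 mixed characteristic, chart: the model over the Witt vectors

A model of `A` over a Cohen ring gives, after a change of parameter rings with coefficients free of
the variables, a model of `W(L)[[X, Z]] ⊗ A` of the same degree.
-/

noncomputable section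

namespace Vale.Agent.P202.Mixed.Chart

open IsLocalRing MvPowerSeries TensorProduct

universe u

/-- The first `d + 1` variables. -/
def embX (d s : ℕ) : Fin (d + 1) ↪ Fin (d + s + 1) := Fin.castLEEmb (by omega)

/-- The last `s` variables. -/
def embZ (d s : ℕ) : Fin s ↪ Fin (d + s + 1) :=
  ⟨fun i => ⟨d + 1 + i, by omega⟩, fun i j h => by
    have := congrArg Fin.val h
    simp only at this
    exact Fin.ext (by omega)⟩

theorem embX_zero (d s : ℕ) : embX d s 0 = 0 := rfl

theorem embZ_ne_embX (d s : ℕ) (i : Fin s) (j : Fin (d + 1)) : embZ d s i ≠ embX d s j := fun h => by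
  have h1 : d + 1 + (i : ℕ) = (j : ℕ) := congrArg Fin.val h
  have h2 := j.isLt
  omega

theorem exists_emb_eq (d s : ℕ) (k : Fin (d + s + 1)) :
    (∃ j, embX d s j = k) ∨ ∃ i, embZ d s i = k := by
  by_cases h : (k : ℕ) < d + 1
  · exact Or.inl ⟨⟨k, h⟩, rfl⟩
  · refine Or.inr ⟨⟨k - (d + 1), by omega⟩, Fin.ext ?_⟩
    show d + 1 + ((k : ℕ) - (d + 1)) = k
    omega

/-- The exponents of the renamed series avoid the first variables. -/
theorem coeff_rename_embZ {R : Type*} [CommRing R] (d s : ℕ) (F : MvPowerSeries (Fin s) R)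
    (m : Fin (d + s + 1) →₀ ℕ) (hm : part (embX d s) m ≠ 0) :
    coeff m (rename (embZ d s) F) = 0 := by
  refine coeff_rename_eq_zero (f := embZ d s) F ?_
  rintro ⟨t, rfl⟩
  refine hm (Finsupp.ext fun j => ?_)
  rw [part_apply, Finsupp.coe_zero, Pi.zero_apply]
  refine Finsupp.mapDomain_notin_range _ _ ?_
  rintro ⟨i, hi⟩
  exact embZ_ne_embX d s i j hi

/-- Powers of a supremum with an ideal. -/
theorem sup_pow_le_sup_pow {R : Type*} [CommRing R] (I X : Ideal R) (j : ℕ) :
    (I ⊔ X) ^ j ≤ I ⊔ X ^ j := by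
  refine (Ideal.map_le_iff_le_comap.1 ?_).trans_eq
    (show Ideal.comap (Ideal.Quotient.mk I) ((X ^ j).map (Ideal.Quotient.mk I)) = I ⊔ X ^ j by
      rw [Ideal.comap_map_of_surjective' _ Ideal.Quotient.mk_surjective, Ideal.mk_ker, sup_comm])
  rw [Ideal.map_pow, Ideal.map_pow, Ideal.map_sup, Ideal.map_quotient_self, bot_sup_eq]

/-- A power of a supremum, split off the first ideal. -/
theorem sup_pow_succ_le {R : Type*} [CommRing R] (P Q : Ideal R) :
    ∀ k : ℕ, (P ⊔ Q) ^ (k + 1) ≤ P * (P ⊔ Q) ^ k ⊔ Q ^ (k + 1)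
  | 0 => by simp
  | k + 1 => by
    rw [pow_succ' (P ⊔ Q) (k + 1), Ideal.sup_mul]
    refine sup_le le_sup_left ((Ideal.mul_mono le_rfl (sup_pow_succ_le P Q k)).trans ?_)
    rw [Ideal.mul_sup]
    refine sup_le_sup ?_ (le_of_eq (pow_succ' Q (k + 1)).symm)
    rw [mul_left_comm]
    refine Ideal.mul_mono le_rfl ?_
    rw [pow_succ']
    exact Ideal.mul_mono le_sup_right le_rfl

variable {p : ℕ} [Fact p.Prime] {L : Type u} [Field L] [CharP L p] [PerfectRing L p]
  {C : Type u} [CommRing C] [IsLocalRing C]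

theorem isLocalRing_series (d : ℕ) : IsLocalRing (MvPowerSeries (Fin d) (WittVector p L)) :=
  inferInstance

/-- The maximal ideal of power series over a ring with maximal ideal `(p)`. -/
theorem maximalIdeal_series_le {R : Type u} [CommRing R] [IsLocalRing R]
    (hR : maximalIdeal R = Ideal.span {(p : R)}) {n : ℕ} :
    maximalIdeal (MvPowerSeries (Fin n) R) ≤
      Ideal.span {(p : MvPowerSeries (Fin n) R)} ⊔ Ideal.span (Set.range X) := by
  intro F hF
  have h1 : constantCoeff F ∈ maximalIdeal R := (mem_maximalIdeal _).2 fun h =>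
    (mem_maximalIdeal F).1 hF (isUnit_iff_constantCoeff.2 h)
  rw [hR, Ideal.mem_span_singleton'] at h1
  obtain ⟨c, hc⟩ := h1
  rw [← sub_add_cancel F (MvPowerSeries.C (constantCoeff F))]
  refine add_mem (Ideal.mem_sup_right (sub_C_constantCoeff_mem_span_X F)) (Ideal.mem_sup_left ?_)
  rw [← hc, map_mul, map_natCast]
  exact Ideal.mul_mem_left _ _ (Ideal.mem_span_singleton_self _)

variable {A : Type u} [CommRing A] [IsLocalRing A] {d s : ℕ}
  [Algebra (MvPowerSeries (Fin (d + 1)) C) A] {D : ℕ}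
  [Algebra (MvPowerSeries (Fin (d + 1)) C) (MvPowerSeries (Fin (d + s + 1)) (WittVector p L))]

variable [Module.Flat (MvPowerSeries (Fin (d + 1)) C) (MvPowerSeries (Fin (d + s + 1)) (WittVector p L))] [IsLocalRing ((MvPowerSeries (Fin (d + s + 1)) (WittVector p L)) ⊗[(MvPowerSeries (Fin (d + 1)) C)] A)]

/-- The kernel after the change of parameter rings. -/
theorem ker_algebraMap_eq (Mo : Model p A (C := C) (d := d) D) :
    RingHom.ker (algebraMap (MvPowerSeries (Fin (d + s + 1)) (WittVector p L)) ((MvPowerSeries (Fin (d + s + 1)) (WittVector p L)) ⊗[(MvPowerSeries (Fin (d + 1)) C)] A)) = Ideal.span {algebraMap (MvPowerSeries (Fin (d + 1)) C) (MvPowerSeries (Fin (d + s + 1)) (WittVector p L)) Mo.g} := by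
  refine le_antisymm (fun w hw => ?_) ?_
  · let f : ((MvPowerSeries (Fin (d + 1)) C) ⧸ Ideal.span {Mo.g}) →ₗ[(MvPowerSeries (Fin (d + 1)) C)] A :=
      Submodule.liftQ _ (Algebra.linearMap (MvPowerSeries (Fin (d + 1)) C) A) fun v hv => by
        rw [LinearMap.mem_ker, Algebra.linearMap_apply, ← RingHom.mem_ker, Mo.ker_eq]
        exact hv
    have hf : Function.Injective f := by
      rw [← LinearMap.ker_eq_bot, LinearMap.ker_eq_bot']
      intro q hq
      obtain ⟨v, rfl⟩ := Submodule.Quotient.mk_surjective _ q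
      rw [Submodule.Quotient.mk_eq_zero, ← Mo.ker_eq, RingHom.mem_ker]
      exact hq
    have h0 : w ⊗ₜ[(MvPowerSeries (Fin (d + 1)) C)] (Submodule.Quotient.mk (1 : (MvPowerSeries (Fin (d + 1)) C)) : (MvPowerSeries (Fin (d + 1)) C) ⧸ Ideal.span {Mo.g}) = 0 := by
      apply Module.Flat.lTensor_preserves_injective_linearMap (M := (MvPowerSeries (Fin (d + s + 1)) (WittVector p L))) f hf
      rw [map_zero, LinearMap.lTensor_tmul]
      rw [RingHom.mem_ker, Algebra.TensorProduct.algebraMap_apply] at hw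
      simp only [f, Submodule.liftQ_apply, Algebra.linearMap_apply, map_one]
      exact hw
    have h1 := congrArg (TensorProduct.tensorQuotEquivQuotSMul (MvPowerSeries (Fin (d + s + 1)) (WittVector p L)) (Ideal.span {Mo.g})) h0
    rw [map_zero] at h1
    erw [TensorProduct.tensorQuotEquivQuotSMul_tmul_mk] at h1
    rw [one_smul, Submodule.Quotient.mk_eq_zero, Ideal.smul_top_eq_map,
      Submodule.restrictScalars_mem, Ideal.map_span, Set.image_singleton] at h1
    exact h1
  · rw [Ideal.span_singleton_le_iff_mem, RingHom.mem_ker,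
      ← IsScalarTower.algebraMap_apply (MvPowerSeries (Fin (d + 1)) C) (MvPowerSeries (Fin (d + s + 1)) (WittVector p L)) ((MvPowerSeries (Fin (d + s + 1)) (WittVector p L)) ⊗[(MvPowerSeries (Fin (d + 1)) C)] A),
      ← (Algebra.TensorProduct.includeRight : A →ₐ[(MvPowerSeries (Fin (d + 1)) C)] (MvPowerSeries (Fin (d + s + 1)) (WittVector p L)) ⊗[(MvPowerSeries (Fin (d + 1)) C)] A).commutes,
      show algebraMap (MvPowerSeries (Fin (d + 1)) C) A Mo.g = 0 from
        RingHom.mem_ker.1 (Mo.ker_eq.ge (Ideal.mem_span_singleton_self _))]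
    exact map_zero _

/-- The model over the Witt vectors. -/
theorem exists_model (hC : IsCohen p C) [Module.Finite (MvPowerSeries (Fin (d + 1)) C) A]
    (θ : C →+* (MvPowerSeries (Fin (d + s + 1)) (WittVector p L))) (hθC : ∀ c, algebraMap (MvPowerSeries (Fin (d + 1)) C) (MvPowerSeries (Fin (d + s + 1)) (WittVector p L)) (MvPowerSeries.C c) = θ c)
    (hψX : ∀ i, algebraMap (MvPowerSeries (Fin (d + 1)) C) (MvPowerSeries (Fin (d + s + 1)) (WittVector p L)) (X i) = X (embX d s i))
    (hθ : ∀ c (m : Fin (d + s + 1) →₀ ℕ), part (embX d s) m ≠ 0 → coeff m (θ c) = 0)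
    (hθ0 : ∀ c, (p : WittVector p L) ∣ constantCoeff (θ c) → (p : C) ∣ c)
    (Mo : Model p A (C := C) (d := d) D)
    (hpA : (p : A) ∈ maximalIdeal A)
    (hBmax : maximalIdeal ((MvPowerSeries (Fin (d + s + 1)) (WittVector p L)) ⊗[(MvPowerSeries (Fin (d + 1)) C)] A) = (maximalIdeal (MvPowerSeries (Fin (d + s + 1)) (WittVector p L))).map (algebraMap (MvPowerSeries (Fin (d + s + 1)) (WittVector p L)) ((MvPowerSeries (Fin (d + s + 1)) (WittVector p L)) ⊗[(MvPowerSeries (Fin (d + 1)) C)] A)) ⊔
      (maximalIdeal A).map (Algebra.TensorProduct.includeRight : A →ₐ[(MvPowerSeries (Fin (d + 1)) C)] (MvPowerSeries (Fin (d + s + 1)) (WittVector p L)) ⊗[(MvPowerSeries (Fin (d + 1)) C)] A).toRingHom) :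
    ∃ MoB : Model p ((MvPowerSeries (Fin (d + s + 1)) (WittVector p L)) ⊗[(MvPowerSeries (Fin (d + 1)) C)] A) (C := WittVector p L) (d := d + s) D,
      MoB.h = (Algebra.TensorProduct.includeRight : A →ₐ[(MvPowerSeries (Fin (d + 1)) C)] (MvPowerSeries (Fin (d + s + 1)) (WittVector p L)) ⊗[(MvPowerSeries (Fin (d + 1)) C)] A) Mo.h := by
  classical
  set B := (MvPowerSeries (Fin (d + s + 1)) (WittVector p L)) ⊗[(MvPowerSeries (Fin (d + 1)) C)] A
  set jA : A →+* B := (Algebra.TensorProduct.includeRight : A →ₐ[(MvPowerSeries (Fin (d + 1)) C)] B).toRingHom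
  have hjV : ∀ v : (MvPowerSeries (Fin (d + 1)) C), jA (algebraMap (MvPowerSeries (Fin (d + 1)) C) A v) = algebraMap (MvPowerSeries (Fin (d + s + 1)) (WittVector p L)) B (algebraMap (MvPowerSeries (Fin (d + 1)) C) (MvPowerSeries (Fin (d + s + 1)) (WittVector p L)) v) := fun v => by
    rw [← IsScalarTower.algebraMap_apply (MvPowerSeries (Fin (d + 1)) C) (MvPowerSeries (Fin (d + s + 1)) (WittVector p L)) B]
    exact (Algebra.TensorProduct.includeRight : A →ₐ[(MvPowerSeries (Fin (d + 1)) C)] B).commutes v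
  have hcoeff := coeff_map_eq (embX d s) (algebraMap (MvPowerSeries (Fin (d + 1)) C) (MvPowerSeries (Fin (d + s + 1)) (WittVector p L))) θ hθC hψX hθ
  have hcoeffX : ∀ (F : (MvPowerSeries (Fin (d + 1)) C)) (t : Fin (d + 1) →₀ ℕ),
      coeff (t.embDomain (embX d s)) (algebraMap (MvPowerSeries (Fin (d + 1)) C) (MvPowerSeries (Fin (d + s + 1)) (WittVector p L)) F) = constantCoeff (θ (coeff t F)) := by
    intro F t
    rw [hcoeff, part_embDomain, tsub_self, coeff_zero_eq_constantCoeff_apply]
  have hndvd : ∀ (F : (MvPowerSeries (Fin (d + 1)) C)) (t : Fin (d + 1) →₀ ℕ), ¬ (p : C) ∣ coeff t F →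
      ¬ (p : WittVector p L) ∣ coeff (t.embDomain (embX d s)) (algebraMap (MvPowerSeries (Fin (d + 1)) C) (MvPowerSeries (Fin (d + s + 1)) (WittVector p L)) F) :=
    fun F t h h' => h (hθ0 _ (hcoeffX F t ▸ h'))
  have hX : ∀ k, (X k : (MvPowerSeries (Fin (d + s + 1)) (WittVector p L))) ∈ maximalIdeal (MvPowerSeries (Fin (d + s + 1)) (WittVector p L)) := fun k =>
    (mem_maximalIdeal _).2 fun h => by simpa using isUnit_iff_constantCoeff.1 h
  have hxB : ∀ k, modelX B (WittVector p L) (d := d + s) k ∈ maximalIdeal B := fun k => by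
    rw [hBmax]
    exact Ideal.mem_sup_left (Ideal.mem_map_of_mem _ (hX k))
  have hpB : (p : B) ∈ (maximalIdeal A).map jA := by
    rw [← map_natCast jA]
    exact Ideal.mem_map_of_mem _ hpA
  have hWm : maximalIdeal (MvPowerSeries (Fin (d + s + 1)) (WittVector p L)) ≤ Ideal.span {(p : (MvPowerSeries (Fin (d + s + 1)) (WittVector p L)))} ⊔ Ideal.span (Set.range X) :=
    maximalIdeal_series_le (maximalIdeal_witt p L)
  -- the residue field
  have hres : ∀ r : B, ∃ c : WittVector p L,
      r - algebraMap (MvPowerSeries (Fin (d + s + 1)) (WittVector p L)) B (MvPowerSeries.C c) ∈ maximalIdeal B := by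
    have hdec : ∀ r : B, ∃ w : (MvPowerSeries (Fin (d + s + 1)) (WittVector p L)), r - algebraMap (MvPowerSeries (Fin (d + s + 1)) (WittVector p L)) B w ∈ maximalIdeal B := by
      intro r
      induction r using TensorProduct.induction_on with
      | zero => exact ⟨0, by simp⟩
      | tmul w a =>
        obtain ⟨c, hc⟩ := Mo.residue_surj a
        refine ⟨w * algebraMap (MvPowerSeries (Fin (d + 1)) C) (MvPowerSeries (Fin (d + s + 1)) (WittVector p L)) (MvPowerSeries.C c), ?_⟩
        have h1 : w ⊗ₜ[(MvPowerSeries (Fin (d + 1)) C)] a = algebraMap (MvPowerSeries (Fin (d + s + 1)) (WittVector p L)) B w * jA a := by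
          rw [← Algebra.smul_def]
          show w ⊗ₜ[(MvPowerSeries (Fin (d + 1)) C)] a = w • (1 ⊗ₜ[(MvPowerSeries (Fin (d + 1)) C)] a)
          rw [TensorProduct.smul_tmul', smul_eq_mul, mul_one]
        rw [h1, map_mul, ← hjV, ← mul_sub, ← map_sub, hBmax]
        exact Ideal.mul_mem_left _ _ (Ideal.mem_sup_right (Ideal.mem_map_of_mem jA hc))
      | add r r' hr hr' =>
        obtain ⟨w, hw⟩ := hr
        obtain ⟨w', hw'⟩ := hr'
        refine ⟨w + w', ?_⟩
        rw [map_add, add_sub_add_comm]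
        exact add_mem hw hw'
    intro r
    obtain ⟨w, hw⟩ := hdec r
    refine ⟨constantCoeff w, ?_⟩
    have h2 : algebraMap (MvPowerSeries (Fin (d + s + 1)) (WittVector p L)) B (w - MvPowerSeries.C (constantCoeff w)) ∈ maximalIdeal B := by
      rw [hBmax]
      exact Ideal.mem_sup_left (Ideal.mem_map_of_mem _ ((mem_maximalIdeal _).2 fun h => by
        simpa using isUnit_iff_constantCoeff.1 h))
    have h3 := add_mem hw h2
    rwa [map_sub, sub_add_sub_cancel] at h3
  -- the data
  refine ⟨{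
    g := algebraMap (MvPowerSeries (Fin (d + 1)) C) (MvPowerSeries (Fin (d + s + 1)) (WittVector p L)) Mo.g
    G := algebraMap (MvPowerSeries (Fin (d + 1)) C) (MvPowerSeries (Fin (d + s + 1)) (WittVector p L)) Mo.G
    b := Mo.b
    finite := inferInstance
    residue_surj := hres
    x_mem := hxB
    ker_eq := ker_algebraMap_eq Mo
    g_const := ?_
    g_regular := ?_
    G_indep := ?_
    G_nonzero := ?_
    cokilled := ?_
    reduction := ?_
    small := ?_ }, ?_⟩
  · obtain ⟨u, hu⟩ := Mo.g_const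
    have h0 := hcoeffX Mo.g 0
    rw [Finsupp.embDomain_zero, coeff_zero_eq_constantCoeff_apply,
      coeff_zero_eq_constantCoeff_apply, hu, map_mul, map_pow, map_natCast, map_mul, map_pow,
      map_natCast] at h0
    exact ⟨(u.isUnit.map θ).map constantCoeff |>.unit, h0⟩
  · obtain ⟨e, he⟩ := Mo.g_regular
    refine ⟨e, ?_⟩
    have := hndvd Mo.g _ he
    rwa [Finsupp.embDomain_single, embX_zero] at this
  · intro t ht
    rw [hcoeff, Mo.G_indep (part (embX d s) t) (by rwa [part_apply, embX_zero]), map_zero, map_zero]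
  · obtain ⟨t, ht⟩ := Mo.G_nonzero
    exact ⟨_, hndvd Mo.G t ht⟩
  · intro r
    have hP : algebraMap (MvPowerSeries (Fin (d + s + 1)) (WittVector p L)) B ((p : (MvPowerSeries (Fin (d + s + 1)) (WittVector p L))) ^ Mo.b * algebraMap (MvPowerSeries (Fin (d + 1)) C) (MvPowerSeries (Fin (d + s + 1)) (WittVector p L)) Mo.G) =
        jA (algebraMap (MvPowerSeries (Fin (d + 1)) C) A ((p : (MvPowerSeries (Fin (d + 1)) C)) ^ Mo.b * Mo.G)) := by
      rw [hjV, map_mul (algebraMap (MvPowerSeries (Fin (d + 1)) C) (MvPowerSeries (Fin (d + s + 1)) (WittVector p L))), map_pow (algebraMap (MvPowerSeries (Fin (d + 1)) C) (MvPowerSeries (Fin (d + s + 1)) (WittVector p L))), map_natCast]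
    rw [hP]
    induction r using TensorProduct.induction_on with
    | zero => exact ⟨0, by simp⟩
    | tmul w a =>
      obtain ⟨π, hπ⟩ := Mo.cokilled a
      refine ⟨w * algebraMap (MvPowerSeries (Fin (d + 1)) C) (MvPowerSeries (Fin (d + s + 1)) (WittVector p L)) π, ?_⟩
      rw [map_mul, ← hjV, hπ, map_mul jA, mul_left_comm]
      congr 1
      show _ * (1 : (MvPowerSeries (Fin (d + s + 1)) (WittVector p L))) ⊗ₜ[(MvPowerSeries (Fin (d + 1)) C)] a = _
      rw [Algebra.TensorProduct.algebraMap_apply, Algebra.TensorProduct.tmul_mul_tmul, mul_one,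
        one_mul]
      rfl
    | add r r' hr hr' =>
      obtain ⟨π, hπ⟩ := hr
      obtain ⟨π', hπ'⟩ := hr'
      exact ⟨π + π', by rw [map_add, hπ, hπ', mul_add]⟩
  · obtain ⟨r, hr⟩ := Mo.reduction
    refine ⟨r, ?_⟩
    set P := Ideal.span (Set.range (modelX B (WittVector p L) (d := d + s)))
    set Q := (maximalIdeal A).map jA
    have hm : maximalIdeal B ≤ P ⊔ Q := by
      refine hBmax.le.trans (sup_le ((Ideal.map_mono hWm).trans ?_) le_sup_right)
      rw [Ideal.map_sup, Ideal.map_span, Ideal.map_span, Set.image_singleton, map_natCast,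
        ← Set.range_comp]
      exact sup_le (le_sup_of_le_right ((Ideal.span_singleton_le_iff_mem _).2 hpB)) le_sup_left
    have hQP : Q ≤ maximalIdeal B := hBmax ▸ le_sup_right
    have hPm : P ≤ maximalIdeal B := Ideal.span_le.2 (by rintro _ ⟨k, rfl⟩; exact hxB k)
    refine (Ideal.pow_right_mono hm _).trans ((sup_pow_succ_le P Q r).trans (sup_le ?_ ?_))
    · exact Ideal.mul_mono le_rfl (Ideal.pow_right_mono (sup_le hPm hQP) _)
    · rw [← Ideal.map_pow]
      refine (Ideal.map_mono hr).trans ?_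
      rw [Ideal.map_mul, Ideal.map_pow, Ideal.map_span, ← Set.range_comp]
      refine Ideal.mul_mono (Ideal.span_mono ?_) (Ideal.pow_right_mono hQP _)
      rintro _ ⟨i, rfl⟩
      exact ⟨embX d s i, by
        show algebraMap (MvPowerSeries (Fin (d + s + 1)) (WittVector p L)) B (X (embX d s i)) = jA (algebraMap (MvPowerSeries (Fin (d + 1)) C) A (X i))
        rw [hjV, hψX]⟩
  · obtain ⟨c₀, hc₀⟩ := Mo.small
    refine ⟨c₀, fun j => ?_⟩
    set K : Ideal (MvPowerSeries (Fin (d + 1)) C) := Ideal.span {Mo.g, (p : (MvPowerSeries (Fin (d + 1)) C)) ^ Mo.b * Mo.G}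
    set I : Ideal (MvPowerSeries (Fin (d + 1)) C) := K ⊔ Ideal.span (Set.range X) ^ j
    have hfin : Module.length (MvPowerSeries (Fin (d + 1)) C) ((MvPowerSeries (Fin (d + 1)) C) ⧸ I) ≠ ⊤ := fun h => by
      have h1 := hc₀ j
      rw [h, ENat.top_mul (by simp)] at h1
      exact absurd h1 (not_le.2 (WithTop.mul_lt_top (ENat.natCast_lt_top _) (ENat.natCast_lt_top _)))
    obtain ⟨n, hn⟩ := ENat.ne_top_iff_exists.1 hfin
    -- the radical
    have hrad : ∃ r, maximalIdeal (MvPowerSeries (Fin (d + 1)) C) ^ r ≤ I := by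
      obtain ⟨u, hu⟩ := Mo.g_const
      set J : Ideal (MvPowerSeries (Fin (d + 1)) C) := Ideal.span {Mo.g} ⊔ Ideal.span (Set.range X)
      have hpD : (p : (MvPowerSeries (Fin (d + 1)) C)) ^ D ∈ J := by
        have h1 : MvPowerSeries.C (constantCoeff Mo.g) ∈ J := by
          rw [← sub_sub_cancel Mo.g (MvPowerSeries.C (constantCoeff Mo.g))]
          exact sub_mem (Ideal.mem_sup_left (Ideal.mem_span_singleton_self _))
            (Ideal.mem_sup_right (sub_C_constantCoeff_mem_span_X _))
        rw [hu, map_mul, map_pow, map_natCast] at h1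
        exact (Ideal.mul_unit_mem_iff_mem J (u.isUnit.map MvPowerSeries.C)).1 h1
      have hmJ : maximalIdeal (MvPowerSeries (Fin (d + 1)) C) ^ (D + 1) ≤ J := by
        refine (Ideal.pow_right_mono (maximalIdeal_series_le hC.max_eq) _).trans ?_
        rw [sup_comm]
        refine (sup_pow_le_sup_pow _ _ _).trans (sup_le le_sup_right ?_)
        rw [Ideal.span_singleton_pow, Ideal.span_singleton_le_iff_mem, pow_succ]
        exact Ideal.mul_mem_right _ _ hpD
      refine ⟨(D + 1) * j, ?_⟩
      rw [pow_mul]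
      refine (Ideal.pow_right_mono hmJ j).trans ((sup_pow_le_sup_pow _ _ _).trans ?_)
      exact sup_le_sup_right (Ideal.span_mono (by simp)) _
    set J' : Ideal (MvPowerSeries (Fin (d + s + 1)) (WittVector p L)) := Ideal.span (Set.range fun i => (X (embZ d s i) : (MvPowerSeries (Fin (d + s + 1)) (WittVector p L))) ^ j)
    have hle : I.map (algebraMap (MvPowerSeries (Fin (d + 1)) C) (MvPowerSeries (Fin (d + s + 1)) (WittVector p L))) ⊔ J' ≤
        Ideal.span {algebraMap (MvPowerSeries (Fin (d + 1)) C) (MvPowerSeries (Fin (d + s + 1)) (WittVector p L)) Mo.g, (p : (MvPowerSeries (Fin (d + s + 1)) (WittVector p L))) ^ Mo.b * algebraMap (MvPowerSeries (Fin (d + 1)) C) (MvPowerSeries (Fin (d + s + 1)) (WittVector p L)) Mo.G} ⊔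
          Ideal.span (Set.range (X : Fin (d + s + 1) → (MvPowerSeries (Fin (d + s + 1)) (WittVector p L)))) ^ j := by
      rw [Ideal.map_sup, Ideal.map_pow, Ideal.map_span, Ideal.map_span, Set.image_pair, map_mul,
        map_pow, map_natCast, ← Set.range_comp]
      refine sup_le (sup_le_sup_left (Ideal.pow_right_mono (Ideal.span_mono ?_) j) _)
        (le_sup_of_le_right (Ideal.span_le.2 ?_))
      · rintro _ ⟨i, rfl⟩
        exact ⟨embX d s i, (hψX i).symm⟩
      · rintro _ ⟨i, rfl⟩
        exact Ideal.pow_mem_pow (Ideal.subset_span (Set.mem_range_self _)) j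
    have hone : Module.length (MvPowerSeries (Fin (d + s + 1)) (WittVector p L)) ((MvPowerSeries (Fin (d + s + 1)) (WittVector p L)) ⧸ ((maximalIdeal (MvPowerSeries (Fin (d + 1)) C)).map (algebraMap (MvPowerSeries (Fin (d + 1)) C) (MvPowerSeries (Fin (d + s + 1)) (WittVector p L))) ⊔
        Ideal.span (Set.range fun i => (X (embZ d s i) : (MvPowerSeries (Fin (d + s + 1)) (WittVector p L)))))) ≤ 1 := by
      refine (length_quotient_mono (A := (MvPowerSeries (Fin (d + s + 1)) (WittVector p L))) (?_ : maximalIdeal (MvPowerSeries (Fin (d + s + 1)) (WittVector p L)) ≤ _)).trans (le_of_eq ?_)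
      · refine hWm.trans (sup_le ?_ ?_)
        · rw [Ideal.span_singleton_le_iff_mem, ← map_natCast (algebraMap (MvPowerSeries (Fin (d + 1)) C) (MvPowerSeries (Fin (d + s + 1)) (WittVector p L)))]
          refine Ideal.mem_sup_left (Ideal.mem_map_of_mem _ ((mem_maximalIdeal _).2 fun h => ?_))
          exact hC.not_isUnit (by simpa using isUnit_iff_constantCoeff.1 h)
        · rw [Ideal.span_le]
          rintro _ ⟨k, rfl⟩
          rcases exists_emb_eq d s k with ⟨i, rfl⟩ | ⟨i, rfl⟩
          · rw [← hψX]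
            exact Ideal.mem_sup_left (Ideal.mem_map_of_mem _ ((mem_maximalIdeal _).2 fun h => by
              simpa using isUnit_iff_constantCoeff.1 h))
          · exact Ideal.mem_sup_right (Ideal.subset_span ⟨i, rfl⟩)
      · have : IsSimpleModule (MvPowerSeries (Fin (d + s + 1)) (WittVector p L)) ((MvPowerSeries (Fin (d + s + 1)) (WittVector p L)) ⧸ maximalIdeal (MvPowerSeries (Fin (d + s + 1)) (WittVector p L))) :=
          isSimpleModule_iff_isCoatom.2 (maximalIdeal.isMaximal (MvPowerSeries (Fin (d + s + 1)) (WittVector p L))).out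
        exact Module.length_eq_one _ _
    have hlen := (length_quotient_mono hle).trans
      ((length_quotient_map_le (algebraMap (MvPowerSeries (Fin (d + 1)) C) (MvPowerSeries (Fin (d + s + 1)) (WittVector p L))) J' n I hrad hn.ge).trans
        (mul_le_mul_right ((length_quotient_sup_powers_le j s _ _).trans
          (mul_le_mul_right hone _)) _))
    rw [mul_one] at hlen
    refine (mul_le_mul_left hlen _).trans ?_
    have hn' : ((n : ℕ) : ℕ∞) * ((j + 1 : ℕ) : ℕ∞) ≤ (c₀ : ℕ∞) * (((j + 1) ^ (d + 1) : ℕ) : ℕ∞) :=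
      hn ▸ hc₀ j
    norm_cast at hn' ⊢
    calc n * j ^ s * (j + 1) = n * (j + 1) * j ^ s := by ring
      _ ≤ c₀ * (j + 1) ^ (d + 1) * (j + 1) ^ s :=
        Nat.mul_le_mul hn' (Nat.pow_le_pow_left (by omega) _)
      _ = c₀ * (j + 1) ^ (d + s + 1) := by ring
  · show algebraMap (MvPowerSeries (Fin (d + s + 1)) (WittVector p L)) B ((p : (MvPowerSeries (Fin (d + s + 1)) (WittVector p L))) ^ Mo.b * algebraMap (MvPowerSeries (Fin (d + 1)) C) (MvPowerSeries (Fin (d + s + 1)) (WittVector p L)) Mo.G) = jA Mo.h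
    rw [Model.h, hjV, map_mul (algebraMap (MvPowerSeries (Fin (d + 1)) C) (MvPowerSeries (Fin (d + s + 1)) (WittVector p L))), map_pow (algebraMap (MvPowerSeries (Fin (d + 1)) C) (MvPowerSeries (Fin (d + s + 1)) (WittVector p L))), map_natCast]

end Vale.Agent.P202.Mixed.Chart
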